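import Vale.Agent.P271.Hilb.UAsym
import Vale.Agent.P271.Deg.Num

/-!
# P271, chain-free route, block WCOUNT: the numerical estimate

From the counting inequality at the two thresholds `t = ∞` and `t = t*`, the growth inequality
(block GROW) and the smallness of the block containing the index `M`, we get the lower bounds
`(A)` and `(B)` for the sums of the refining weights.
-/

set_option linter.all false

open Filter Topology Finset

namespace Vale.Agent.P271.H177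

/-- the gain factor `(1 - (1 - x)^{1 + 1/n}) / x > 1` -/
noncomputable def gam (n : ℕ) (x : ℝ) : ℝ := (1 - (1 - x) ^ ((1 : ℝ) + 1 / n)) / x

theorem one_lt_gam {n : ℕ} (hn : 1 ≤ n) {x : ℝ} (h0 : 0 < x) (h1 : x < 1) : 1 < gam n x := by
  unfold gam
  rw [lt_div_iff₀ h0, one_mul]
  have hnR : (0 : ℝ) < n := by exact_mod_cast hn
  have h2 : (1 - x) ^ ((1 : ℝ) + 1 / n) < (1 - x) ^ (1 : ℝ) := by
    apply Real.rpow_lt_rpow_of_exponent_gt (by linarith) (by linarith)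
    have : (0 : ℝ) < 1 / n := by positivity
    linarith
  rw [Real.rpow_one] at h2
  linarith

/-- concavity of `u ↦ 1 - (1 - u)^{1 + 1/n}` -/
theorem mul_gam_le {n : ℕ} {x u : ℝ} (h0 : 0 < x) (h1 : x ≤ 1) (hu0 : 0 ≤ u)
    (hux : u ≤ x) : u * gam n x ≤ 1 - (1 - u) ^ ((1 : ℝ) + 1 / n) := by
  have hp : (1 : ℝ) ≤ 1 + 1 / n := by
    have : (0 : ℝ) ≤ 1 / n := by positivity
    linarith
  have hx1 : (1 : ℝ) ∈ Set.Ici (0 : ℝ) := by simp
  have hx2 : (1 - x) ∈ Set.Ici (0 : ℝ) := by rw [Set.mem_Ici]; linarith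
  have ha : 0 ≤ 1 - u / x := by rw [sub_nonneg, div_le_one h0]; exact hux
  have hb : 0 ≤ u / x := by positivity
  have hc := (convexOn_rpow hp).2 hx1 hx2 ha hb (by ring)
  simp only [smul_eq_mul, mul_one, Real.one_rpow] at hc
  have e : 1 - u / x + u / x * (1 - x) = 1 - u := by field_simp; ring
  rw [e] at hc
  unfold gam
  have e2 : u * ((1 - (1 - x) ^ ((1 : ℝ) + 1 / n)) / x) =
      u / x * (1 - (1 - x) ^ ((1 : ℝ) + 1 / n)) := by ring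
  rw [e2]
  linarith

/-- The growth inequality (block GROW), for all families in the class `ok`. -/
def GrowProp (n : ℕ) (N : ℕ → ℕ) (ok : (ℕ → ℕ) → Prop) : Prop :=
  ∀ ρ : ℕ, 0 < ρ → ∀ ε : ℝ, 0 < ε → ∃ T₀ : ℕ, ∀ T : ℕ, T₀ ≤ T → ∀ i : ℕ → ℕ, ok i →
    (T : ℝ) * N T * (1 - ((i T : ℝ) / N T) ^ ((1 : ℝ) + 1 / n)) / (n + 1) - ε * (T : ℝ) ^ (n + 1) ≤
      ρ * ∑ j ∈ range (T / ρ), ((N (T - (j + 1) * ρ) : ℝ) - i (T - (j + 1) * ρ))

/-- choice of the level `r` of the multiplier, uniform in the centre -/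
theorem exists_r (n m₁ r₁ : ℕ) (hm₁ : 1 ≤ m₁) {ε : ℝ} (hε : 0 < ε) :
    ∃ r : ℕ, 0 < r ∧ ∀ d : ℕ, 1 ≤ d → d ≤ n → ∀ NW : ℕ, Hilb.lowSum d (m₁ ^ d) r ≤ NW →
      0 < NW ∧ (1 - ε) * m₁ * ((r : ℝ) + r₁) ≤
        ((d.factorial : ℝ) ^ ((1 : ℝ) / d)) * ((NW : ℝ) ^ ((1 : ℝ) / d)) := by
  obtain ⟨r, hr⟩ := exists_nat_gt (((m₁ ^ n : ℕ) + r₁ : ℝ) / ε)
  refine ⟨r + m₁ ^ n + 1, by omega, ?_⟩
  intro d hd hdn NW hNW
  have hDD : m₁ ^ d ≤ m₁ ^ n := Nat.pow_le_pow_right hm₁ hdn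
  have hDR : ((m₁ ^ d : ℕ) : ℝ) ≤ ((m₁ ^ n : ℕ) : ℝ) := by exact_mod_cast hDD
  have hD1 : (1 : ℝ) ≤ ((m₁ ^ d : ℕ) : ℝ) := by exact_mod_cast Nat.one_le_pow _ _ hm₁
  have h1 := Hilb.lowSum_ge d (m₁ ^ d) (r + m₁ ^ n + 1) (by omega)
  have h2 : (Hilb.lowSum d (m₁ ^ d) (r + m₁ ^ n + 1) : ℝ) ≤ NW := by exact_mod_cast hNW
  have hf : (0 : ℝ) < (d.factorial : ℝ) := by exact_mod_cast d.factorial_pos
  have h3 : ((m₁ ^ d : ℕ) : ℝ) * (((r + m₁ ^ n + 1 : ℕ) : ℝ) - ((m₁ ^ d : ℕ) : ℝ)) ^ d ≤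
      (d.factorial : ℝ) * NW := by
    have := (div_le_iff₀ hf).1 (h1.trans h2)
    linarith
  have hpos : (0 : ℝ) < ((r + m₁ ^ n + 1 : ℕ) : ℝ) - ((m₁ ^ d : ℕ) : ℝ) := by
    push_cast at hDR ⊢
    have : (0 : ℝ) ≤ r := Nat.cast_nonneg r
    linarith
  have hHpos : (0 : ℝ) < NW := by
    have : (0 : ℝ) < ((m₁ ^ d : ℕ) : ℝ) *
        (((r + m₁ ^ n + 1 : ℕ) : ℝ) - ((m₁ ^ d : ℕ) : ℝ)) ^ d := by positivity
    have h4 : (0 : ℝ) < (d.factorial : ℝ) * NW := lt_of_lt_of_le this h3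
    exact (pos_iff_pos_of_mul_pos h4).1 hf
  refine ⟨by exact_mod_cast hHpos, ?_⟩
  have hd0 : (d : ℝ) ≠ 0 := by exact_mod_cast (by omega : d ≠ 0)
  rw [← Real.mul_rpow hf.le hHpos.le]
  have hm0 : (0 : ℝ) ≤ m₁ := Nat.cast_nonneg _
  have h5 : (((m₁ ^ d : ℕ) : ℝ) *
      (((r + m₁ ^ n + 1 : ℕ) : ℝ) - ((m₁ ^ d : ℕ) : ℝ)) ^ d) ^ ((1 : ℝ) / d) =
      (m₁ : ℝ) * (((r + m₁ ^ n + 1 : ℕ) : ℝ) - ((m₁ ^ d : ℕ) : ℝ)) := by
    rw [Real.mul_rpow (by positivity) (by positivity), one_div, Real.pow_rpow_inv_natCast hpos.le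
      (by omega), Nat.cast_pow, Real.pow_rpow_inv_natCast hm0 (by omega)]
  refine le_trans ?_ (Real.rpow_le_rpow (by positivity) h3 (by positivity))
  rw [h5, mul_comm (1 - ε), mul_assoc]
  refine mul_le_mul_of_nonneg_left ?_ hm0
  rw [div_lt_iff₀ hε] at hr
  push_cast at hr hDR ⊢
  have h7 : (0 : ℝ) ≤ r := Nat.cast_nonneg r
  have h8 : (0 : ℝ) ≤ r₁ := Nat.cast_nonneg r₁
  have h9 : (0 : ℝ) ≤ (m₁ : ℝ) ^ n := by positivity
  nlinarith

/-- the common part of the two estimates -/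
theorem core {n : ℕ} {N : ℕ → ℕ} {i : ℕ → ℕ} (hle : ∀ M, i M ≤ N M) {m₁ ρ d : ℕ} (hd1 : 1 ≤ d)
    (hdn : d ≤ n) {ε' η c D Φ : ℝ} (hε' : ε' ≤ 1) (hη : 0 ≤ η) {T : ℕ}
    (hc : (1 - ε') * m₁ * ρ ≤ c)
    (hg : (T : ℝ) * N T * Φ / (n + 1) - η * (T : ℝ) ^ (n + 1) ≤
      ρ * ∑ j ∈ range (T / ρ), ((N (T - (j + 1) * ρ) : ℝ) - i (T - (j + 1) * ρ)))
    (hD : d * c * ∑ j ∈ range (T / ρ), ((N (T - (j + 1) * ρ) : ℝ) - i (T - (j + 1) * ρ)) -
      (d + 1) * ((N T : ℝ) - i T) ≤ D) :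
    d * (1 - ε') * m₁ * ((T : ℝ) * N T * Φ / (n + 1) - η * (T : ℝ) ^ (n + 1)) -
      (n + 1) * ((N T : ℝ) - i T) ≤ D := by
  refine le_trans ?_ hD
  set s : ℝ := ∑ j ∈ range (T / ρ), ((N (T - (j + 1) * ρ) : ℝ) - i (T - (j + 1) * ρ)) with hs
  have hs0 : 0 ≤ s := Finset.sum_nonneg fun j _ => sub_nonneg.2 (by exact_mod_cast hle _)
  have hdR : (1 : ℝ) ≤ d := by exact_mod_cast hd1
  have hdnR : (d : ℝ) ≤ n := by exact_mod_cast hdn
  have hh : (0 : ℝ) ≤ (N T : ℝ) - i T := sub_nonneg.2 (by exact_mod_cast hle _)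
  have h1 : (d : ℝ) * (1 - ε') * m₁ * ((T : ℝ) * N T * Φ / (n + 1) - η * (T : ℝ) ^ (n + 1)) ≤
      (d : ℝ) * (1 - ε') * m₁ * (ρ * s) :=
    mul_le_mul_of_nonneg_left hg (mul_nonneg (mul_nonneg (by linarith) (by linarith))
      (Nat.cast_nonneg _))
  have h2 : (d : ℝ) * (1 - ε') * m₁ * (ρ * s) ≤ d * c * s := by
    have := mul_le_mul_of_nonneg_left (mul_le_mul_of_nonneg_right hc hs0)
      (show (0 : ℝ) ≤ d by linarith)
    nlinarith
  have h3 : ((d : ℝ) + 1) * ((N T : ℝ) - i T) ≤ (n + 1) * ((N T : ℝ) - i T) :=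
    mul_le_mul_of_nonneg_right (by linarith) hh
  linarith

/-- arithmetic of case `(A)` -/
theorem arithA {n d m T N ε x₀ E D : ℝ} (hn : 0 < n + 1) (hd : 1 ≤ d) (hm : 1 ≤ m) (hT : 1 ≤ T)
    (hN : 0 < N) (hε : 0 < ε) (hε1 : ε < 1) (hx0 : 0 < x₀) (hx1 : x₀ < 1)
    (h2 : (n + 1) * N ≤ ε / 2 * (d / (n + 1)) * (m * T * N))
    (hE : E ≤ ε * x₀ / (16 * (n + 1)) * (T * N))
    (h1 : d * (1 - ε / 4) * m * (T * N / (n + 1) - E) - (n + 1) * N ≤ D) :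
    (1 - ε) * (d / (n + 1)) * (m * T * N) ≤ D := by
  refine le_trans ?_ h1
  have h3 : d * (1 - ε / 4) * m * (T * N / (n + 1) - ε * x₀ / (16 * (n + 1)) * (T * N))
      ≤ d * (1 - ε / 4) * m * (T * N / (n + 1) - E) :=
    mul_le_mul_of_nonneg_left (by linarith) (mul_nonneg (mul_nonneg (by linarith) (by linarith))
      (by linarith))
  have h4 : d * (1 - ε / 4) * m * (T * N / (n + 1) - ε * x₀ / (16 * (n + 1)) * (T * N))
      = ((1 - ε / 4) * (1 - ε * x₀ / 16)) * (d / (n + 1) * (m * T * N)) := by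
    field_simp
  have h5 : 1 - ε / 2 ≤ (1 - ε / 4) * (1 - ε * x₀ / 16) := by nlinarith [mul_pos hε hx0]
  have hX : 0 ≤ d / (n + 1) * (m * T * N) := by positivity
  have h6 := mul_le_mul_of_nonneg_right h5 hX
  have h7 : ε / 2 * (d / (n + 1)) * (m * T * N) = ε / 2 * (d / (n + 1) * (m * T * N)) := by ring
  have h8 : (1 - ε) * (d / (n + 1)) * (m * T * N) = (1 - ε) * (d / (n + 1) * (m * T * N)) := by ring
  rw [h8]
  rw [h7] at h2
  linarith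

/-- arithmetic of case `(B)` -/
theorem arithB {n d m T N M h g ε x₀ P E D : ℝ} (hn : 0 < n + 1) (hd : 1 ≤ d) (hm : 1 ≤ m)
    (hT : 1 ≤ T) (hM : 0 < M) (hε : 0 < ε) (hε1 : ε < 1) (hx0 : 0 < x₀) (hx1 : x₀ < 1)
    (hg1 : 1 < g) (hh0 : 0 ≤ h) (hM1 : x₀ / 2 * N ≤ M) (hM3 : h ≤ M) (hM4 : M ≤ h + ε * x₀ / 16 * N)
    (h2 : (n + 1) * M ≤ ε / 2 * (d / (n + 1)) * (m * T * M))
    (hE : E ≤ ε * x₀ / (16 * (n + 1)) * (T * N))
    (hP : T * h * g / (n + 1) ≤ P)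
    (h1 : d * (1 - ε / 4) * m * (P - E) - (n + 1) * h ≤ D) :
    (1 - ε) * (d / (n + 1)) * g * (m * T * M) ≤ D := by
  refine le_trans ?_ h1
  have hNM : N ≤ 2 / x₀ * M := by
    rw [div_mul_eq_mul_div, le_div_iff₀ hx0]; linarith
  have hhM : (1 - ε / 8) * M ≤ h := by
    have h5 : ε * x₀ / 16 * N ≤ ε / 8 * M := by
      calc ε * x₀ / 16 * N ≤ ε * x₀ / 16 * (2 / x₀ * M) :=
            mul_le_mul_of_nonneg_left hNM (by positivity)
        _ = ε / 8 * M := by field_simp; ring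
    linarith
  have hT0 : 0 < T := by linarith
  have h6 : T * M * g / (n + 1) * (1 - ε / 4) ≤ P - E := by
    have h7 : ε * x₀ / (16 * (n + 1)) * (T * N) ≤ ε / (8 * (n + 1)) * (T * M) := by
      calc ε * x₀ / (16 * (n + 1)) * (T * N) ≤ ε * x₀ / (16 * (n + 1)) * (T * (2 / x₀ * M)) :=
            mul_le_mul_of_nonneg_left (mul_le_mul_of_nonneg_left hNM hT0.le) (by positivity)
        _ = ε / (8 * (n + 1)) * (T * M) := by field_simp; ring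
    have h8 : ε / (8 * (n + 1)) * (T * M) ≤ T * M * g / (n + 1) * (ε / 8) := by
      have e : T * M * g / (n + 1) * (ε / 8) = ε / (8 * (n + 1)) * (T * M) * g := by
        field_simp
      rw [e]
      have h0 : 0 ≤ ε / (8 * (n + 1)) * (T * M) := by positivity
      exact le_mul_of_one_le_right h0 hg1.le
    have h9 : T * M * g / (n + 1) * (1 - ε / 8) ≤ T * h * g / (n + 1) := by
      have e : T * M * g / (n + 1) * (1 - ε / 8) = T * ((1 - ε / 8) * M) * g / (n + 1) := by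
        ring
      rw [e]
      have h10 : T * ((1 - ε / 8) * M) * g ≤ T * h * g :=
        mul_le_mul_of_nonneg_right (mul_le_mul_of_nonneg_left hhM hT0.le) (by linarith)
      exact div_le_div_of_nonneg_right h10 hn.le
    have h11 : T * M * g / (n + 1) * (1 - ε / 4) = T * M * g / (n + 1) * (1 - ε / 8) -
      T * M * g / (n + 1) * (ε / 8) := by ring
    rw [h11]
    linarith
  have h10 : d * (1 - ε / 4) * m * (T * M * g / (n + 1) * (1 - ε / 4)) ≤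
      d * (1 - ε / 4) * m * (P - E) :=
    mul_le_mul_of_nonneg_left h6 (mul_nonneg (mul_nonneg (by linarith) (by linarith))
      (by linarith))
  have h11 : d * (1 - ε / 4) * m * (T * M * g / (n + 1) * (1 - ε / 4)) =
      ((1 - ε / 4) * (1 - ε / 4)) * (d / (n + 1) * g * (m * T * M)) := by
    field_simp
  have h12 : 1 - ε / 2 ≤ (1 - ε / 4) * (1 - ε / 4) := by nlinarith
  have hg0 : 0 < g := by linarith
  have hd0 : 0 < d := by linarith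
  have hm0 : 0 < m := by linarith
  have hX : 0 ≤ d / (n + 1) * g * (m * T * M) := by positivity
  have h13 := mul_le_mul_of_nonneg_right h12 hX
  have h14 : (n + 1) * h ≤ ε / 2 * (d / (n + 1) * g * (m * T * M)) := by
    have h16 : (n + 1) * h ≤ (n + 1) * M := mul_le_mul_of_nonneg_left hM3 hn.le
    have h17 : ε / 2 * (d / (n + 1)) * (m * T * M) ≤
        ε / 2 * (d / (n + 1) * g * (m * T * M)) := by
      have e : ε / 2 * (d / (n + 1) * g * (m * T * M)) =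
        (ε / 2 * (d / (n + 1)) * (m * T * M)) * g := by ring
      rw [e]
      have h0 : 0 ≤ ε / 2 * (d / (n + 1)) * (m * T * M) := by positivity
      exact le_mul_of_one_le_right h0 hg1.le
    linarith
  have h18 : (1 - ε) * (d / (n + 1)) * g * (m * T * M) =
    (1 - ε) * (d / (n + 1) * g * (m * T * M)) := by ring
  rw [h18]
  linarith

/-- **The numerical estimate of the chain-free proof.** -/
theorem wcount {n : ℕ} (hn : 1 ≤ n) {N : ℕ → ℕ} {v₀ : ℝ} (hv₀ : 0 < v₀)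
    (hN : Tendsto (fun T : ℕ => (N T : ℝ) / (T : ℝ) ^ n) atTop (𝓝 v₀)) {ok : (ℕ → ℕ) → Prop}
    (hok0 : ok (fun _ => 0)) (hokle : ∀ i, ok i → ∀ M, i M ≤ N M) (hG : GrowProp n N ok)
    {m₁ r₁ : ℕ} (hm₁ : 1 ≤ m₁) {x₀ ε : ℝ} (hx0 : 0 < x₀) (hx1 : x₀ < 1) (hε : 0 < ε)
    (hε1 : ε < 1) :
    ∃ r : ℕ, 0 < r ∧ ∃ δ : ℝ, 0 < δ ∧ ∃ T₀ : ℕ, ∀ T : ℕ, T₀ ≤ T → 0 < N T ∧ ∀ d : ℕ, 1 ≤ d → d ≤ n →
      ∀ NW : ℕ, Hilb.lowSum d (m₁ ^ d) r ≤ NW → 0 < NW ∧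
      (∀ D : ℝ, (d : ℝ) * ((d.factorial : ℝ) ^ ((1 : ℝ) / d)) * ((NW : ℝ) ^ ((1 : ℝ) / d)) *
          ∑ j ∈ range (T / (r + r₁)), (N (T - (j + 1) * (r + r₁)) : ℝ) - (d + 1) * (N T : ℝ) ≤ D →
        (1 - ε) * ((d : ℝ) / (n + 1)) * (m₁ * T * N T) ≤ D) ∧
      (∀ i : ℕ → ℕ, ok i → ∀ D : ℝ,
        (d : ℝ) * ((d.factorial : ℝ) ^ ((1 : ℝ) / d)) * ((NW : ℝ) ^ ((1 : ℝ) / d)) *
          ∑ j ∈ range (T / (r + r₁)), ((N (T - (j + 1) * (r + r₁)) : ℝ) -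
            i (T - (j + 1) * (r + r₁))) - (d + 1) * ((N T : ℝ) - i T) ≤ D →
        ∀ M : ℝ, x₀ / 2 * N T ≤ M → M ≤ x₀ * N T → (N T : ℝ) - i T ≤ M →
          M ≤ (N T : ℝ) - i T + δ * N T →
        (1 - ε) * ((d : ℝ) / (n + 1)) * gam n x₀ * (m₁ * T * M) ≤ D) := by
  have hnR : (0 : ℝ) < (n : ℝ) + 1 := by positivity
  have hn1 : (1 : ℝ) ≤ n := by exact_mod_cast hn
  set η : ℝ := ε * v₀ * x₀ / (32 * (n + 1)) with hη
  have hη0 : 0 < η := by positivity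
  obtain ⟨r, hr, hr2⟩ := exists_r n m₁ r₁ hm₁ (ε := ε / 4) (by positivity)
  refine ⟨r, hr, ε * x₀ / 16, by positivity, ?_⟩
  have hρ : 0 < r + r₁ := by omega
  obtain ⟨T₁, hT₁⟩ := hG (r + r₁) hρ η hη0
  have hev : ∀ᶠ T : ℕ in atTop, v₀ / 2 ≤ (N T : ℝ) / (T : ℝ) ^ n :=
    (hN.eventually (lt_mem_nhds (show v₀ / 2 < v₀ by linarith))).mono fun _ h => h.le
  obtain ⟨T₂, hT₂⟩ := eventually_atTop.1 hev
  obtain ⟨T₃, hT₃⟩ := exists_nat_gt (2 * ((n : ℝ) + 1) ^ 2 / ε)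
  refine ⟨max T₁ (max T₂ (max T₃ 1)), ?_⟩
  intro T hT
  have hTa : T₁ ≤ T := le_trans (le_max_left _ _) hT
  have hTb : T₂ ≤ T := le_trans ((le_max_left _ _).trans (le_max_right _ _)) hT
  have hTc : T₃ ≤ T := le_trans ((le_max_left _ _).trans ((le_max_right _ _).trans
    (le_max_right _ _))) hT
  have hTd : 1 ≤ T := le_trans ((le_max_right _ _).trans ((le_max_right _ _).trans
    (le_max_right _ _))) hT
  have hTR : (1 : ℝ) ≤ T := by exact_mod_cast hTd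
  have hTn : (0 : ℝ) < (T : ℝ) ^ n := by positivity
  have hNT : v₀ / 2 * (T : ℝ) ^ n ≤ N T := (le_div_iff₀ hTn).1 (hT₂ T hTb)
  have hNpos : (0 : ℝ) < N T := lt_of_lt_of_le (by positivity) hNT
  have hT3 : 2 * ((n : ℝ) + 1) ^ 2 ≤ ε * T := by
    have h1 : 2 * ((n : ℝ) + 1) ^ 2 / ε < T := lt_of_lt_of_le hT₃ (by exact_mod_cast hTc)
    rw [div_lt_iff₀ hε] at h1
    linarith
  have hηT : η * (T : ℝ) ^ (n + 1) ≤ ε * x₀ / (16 * (n + 1)) * (T * N T) := by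
    have h1 : η * (T : ℝ) ^ (n + 1) = ε * x₀ / (16 * (n + 1)) * (T * (v₀ / 2 * (T : ℝ) ^ n)) := by
      rw [hη, pow_succ]; field_simp; ring
    rw [h1]
    exact mul_le_mul_of_nonneg_left (mul_le_mul_of_nonneg_left hNT (by linarith)) (by positivity)
  have hm1R : (1 : ℝ) ≤ m₁ := by exact_mod_cast hm₁
  refine ⟨by exact_mod_cast hNpos, ?_⟩
  intro d hd hdn NW hNW
  obtain ⟨hNWpos, hcc⟩ := hr2 d hd hdn NW hNW
  have hdR : (1 : ℝ) ≤ d := by exact_mod_cast hd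
  set c : ℝ := ((d.factorial : ℝ) ^ ((1 : ℝ) / d)) * ((NW : ℝ) ^ ((1 : ℝ) / d)) with hc
  have hcc' : (1 - ε / 4) * m₁ * ((r + r₁ : ℕ) : ℝ) ≤ c := by push_cast; exact hcc
  have hsm : ∀ x : ℝ, 0 ≤ x → (n + 1) * x ≤ ε / 2 * ((d : ℝ) / (n + 1)) * (m₁ * T * x) := by
    intro x hx
    have h1 : ((n : ℝ) + 1) ≤ ε / 2 * ((d : ℝ) / (n + 1)) * (m₁ * T) := by
      have h2 : ε / 2 * ((d : ℝ) / (n + 1)) * (m₁ * T) = (ε * T) * (d * m₁) / (2 * (n + 1)) := by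
        field_simp
      rw [h2, le_div_iff₀ (by positivity)]
      have h3 : (1 : ℝ) ≤ d * m₁ := by nlinarith
      have h4 : (0 : ℝ) ≤ ε * T := by positivity
      have h5 : ε * T ≤ ε * T * (d * m₁) := le_mul_of_one_le_right h4 h3
      linarith
    have h6 := mul_le_mul_of_nonneg_right h1 hx
    refine h6.trans (le_of_eq ?_)
    ring
  refine ⟨hNWpos, ?_, ?_⟩
  · intro D hD
    have hg := hT₁ T hTa (fun _ => 0) hok0
    have e0 : ((((0 : ℕ) : ℝ)) / (N T : ℝ)) ^ ((1 : ℝ) + 1 / n) = 0 := by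
      rw [Nat.cast_zero, zero_div]
      exact Real.zero_rpow (by positivity)
    have h1 := core (n := n) (N := N) (i := fun _ => 0) (hokle _ hok0) hd hdn
      (ε' := ε / 4) (η := η) (c := c) (D := D) (m₁ := m₁) (by linarith) hη0.le hcc' hg (by
        simp only [Nat.cast_zero, sub_zero]
        rw [hc, ← mul_assoc]
        exact hD)
    rw [e0] at h1
    simp only [Nat.cast_zero, sub_zero, mul_one] at h1
    exact arithA hnR hdR hm1R hTR hNpos hε hε1 hx0 hx1 (hsm _ hNpos.le) hηT h1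
  · intro i hi D hD M hM1 hM2 hM3 hM4
    have hg := hT₁ T hTa i hi
    have hle := hokle i hi
    have hh0 : (0 : ℝ) ≤ (N T : ℝ) - i T := sub_nonneg.2 (by exact_mod_cast hle _)
    have h1 := core (n := n) (N := N) (i := i) hle hd hdn
      (ε' := ε / 4) (η := η) (c := c) (D := D) (m₁ := m₁) (by linarith) hη0.le hcc' hg (by
        rw [hc, ← mul_assoc]
        exact hD)
    have hg1 : 1 < gam n x₀ := one_lt_gam hn hx0 hx1
    have hMpos : 0 < M := lt_of_lt_of_le (by positivity) hM1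
    have hΦ : ((N T : ℝ) - i T) / N T * gam n x₀ ≤ 1 - ((i T : ℝ) / N T) ^ ((1 : ℝ) + 1 / n) := by
      have h2 := mul_gam_le (n := n) hx0 hx1.le (u := ((N T : ℝ) - i T) / N T) (by positivity)
        (by rw [div_le_iff₀ hNpos]; exact hM3.trans hM2)
      have e : 1 - ((N T : ℝ) - i T) / (N T : ℝ) = (i T : ℝ) / N T := by field_simp; ring
      rwa [e] at h2
    have h3 : (T : ℝ) * ((N T : ℝ) - i T) * gam n x₀ / (n + 1) ≤
        (T : ℝ) * N T * (1 - ((i T : ℝ) / N T) ^ ((1 : ℝ) + 1 / n)) / (n + 1) := by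
      have h4 : (T : ℝ) * ((N T : ℝ) - i T) * gam n x₀ / (n + 1) =
          (T : ℝ) * N T * (((N T : ℝ) - i T) / N T * gam n x₀) / (n + 1) := by
        field_simp
      rw [h4]
      exact div_le_div_of_nonneg_right (mul_le_mul_of_nonneg_left hΦ (by positivity)) hnR.le
    exact arithB hnR hdR hm1R hTR hMpos hε hε1 hx0 hx1 hg1 hh0 hM1 hM3 hM4 (hsm _ hMpos.le) hηT
      h3 h1

end Vale.Agent.P271.H177
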