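import Vale.Agent.P271.H177.WCount
import Vale.Agent.P271.Grow.Num

/-!
# P271, chain-free route, block WCOUNT, second form (consumes `Grow.grow_num`)

`wcount'`, `W'` : as `wcount`, `W`, but the growth of `i_t M = dim I_t(M)` enters through the single
inequality delivered by `Grow.grow_ring` at the level `r` of the multiplier.
-/

set_option linter.all false

open Filter Topology Finset Module

namespace Vale.Agent.P271.H177

open Vale.Agent.P271.Filt Vale.Agent.P271.Filt.Wt Vale.Agent.P271.H207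

universe u w

/-- choice of the level `r` of the multiplier: all large levels -/
theorem exists_R (n m₁ : ℕ) (hm₁ : 1 ≤ m₁) {ε : ℝ} (hε : 0 < ε) :
    ∃ R : ℕ, 0 < R ∧ ∀ r : ℕ, R ≤ r → ∀ d : ℕ, 1 ≤ d → d ≤ n → ∀ NW : ℕ,
      Hilb.lowSum d (m₁ ^ d) r ≤ NW → 0 < NW ∧ (1 - ε) * m₁ * (r : ℝ) ≤
        ((d.factorial : ℝ) ^ ((1 : ℝ) / d)) * ((NW : ℝ) ^ ((1 : ℝ) / d)) := by
  obtain ⟨R, hR⟩ := exists_nat_gt (((m₁ ^ n : ℕ) : ℝ) / ε)
  refine ⟨R + m₁ ^ n + 1, by omega, ?_⟩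
  intro r hrR d hd hdn NW hNW
  have hDD : m₁ ^ d ≤ m₁ ^ n := Nat.pow_le_pow_right hm₁ hdn
  have hDR : ((m₁ ^ d : ℕ) : ℝ) ≤ ((m₁ ^ n : ℕ) : ℝ) := by exact_mod_cast hDD
  have hD1 : (1 : ℝ) ≤ ((m₁ ^ d : ℕ) : ℝ) := by exact_mod_cast Nat.one_le_pow _ _ hm₁
  have hrR' : ((R : ℝ) + ((m₁ ^ n : ℕ) : ℝ) + 1) ≤ r := by exact_mod_cast hrR
  have h1 := Hilb.lowSum_ge d (m₁ ^ d) r (by omega)
  have h2 : (Hilb.lowSum d (m₁ ^ d) r : ℝ) ≤ NW := by exact_mod_cast hNW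
  have hf : (0 : ℝ) < (d.factorial : ℝ) := by exact_mod_cast d.factorial_pos
  have h3 : ((m₁ ^ d : ℕ) : ℝ) * ((r : ℝ) - ((m₁ ^ d : ℕ) : ℝ)) ^ d ≤
      (d.factorial : ℝ) * NW := by
    have := (div_le_iff₀ hf).1 (h1.trans h2)
    linarith
  have hR0 : (0 : ℝ) ≤ R := Nat.cast_nonneg R
  have hpos : (0 : ℝ) < (r : ℝ) - ((m₁ ^ d : ℕ) : ℝ) := by linarith
  have hHpos : (0 : ℝ) < NW := by
    have : (0 : ℝ) < ((m₁ ^ d : ℕ) : ℝ) * ((r : ℝ) - ((m₁ ^ d : ℕ) : ℝ)) ^ d := by positivity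
    have h4 : (0 : ℝ) < (d.factorial : ℝ) * NW := lt_of_lt_of_le this h3
    exact (pos_iff_pos_of_mul_pos h4).1 hf
  refine ⟨by exact_mod_cast hHpos, ?_⟩
  rw [← Real.mul_rpow hf.le hHpos.le]
  have hm0 : (0 : ℝ) ≤ m₁ := Nat.cast_nonneg _
  have h5 : (((m₁ ^ d : ℕ) : ℝ) * ((r : ℝ) - ((m₁ ^ d : ℕ) : ℝ)) ^ d) ^ ((1 : ℝ) / d) =
      (m₁ : ℝ) * ((r : ℝ) - ((m₁ ^ d : ℕ) : ℝ)) := by
    rw [Real.mul_rpow (by positivity) (by positivity), one_div, Real.pow_rpow_inv_natCast hpos.le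
      (by omega), Nat.cast_pow, Real.pow_rpow_inv_natCast hm0 (by omega)]
  refine le_trans ?_ (Real.rpow_le_rpow (by positivity) h3 (by positivity))
  rw [h5, mul_comm (1 - ε), mul_assoc]
  refine mul_le_mul_of_nonneg_left ?_ hm0
  rw [div_lt_iff₀ hε] at hR
  have h6 : ((m₁ ^ n : ℕ) : ℝ) ≤ r * ε := by
    have : (R : ℝ) * ε ≤ r * ε := mul_le_mul_of_nonneg_right (by
      have : (0 : ℝ) ≤ ((m₁ ^ n : ℕ) : ℝ) := Nat.cast_nonneg _
      linarith) hε.le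
    linarith
  linarith

/-- the common part of the two estimates, second form -/
theorem core2 {n : ℕ} {N i : ℕ → ℕ} {T ρ : ℕ} (hle : ∀ M, M ≤ T → i M ≤ N M) {m₁ d r : ℕ}
    (hd1 : 1 ≤ d) (hdn : d ≤ n) {ε' η c D Φ : ℝ} (hε' : ε' ≤ 1)
    (hc : (1 - ε') * m₁ * r ≤ c)
    (hg : (T : ℝ) * N T * (Φ - η) ≤
      (n + 1) * (r * ∑ j ∈ range (T / ρ), ((N (T - (j + 1) * ρ) : ℝ) - i (T - (j + 1) * ρ))))
    (hD : d * c * ∑ j ∈ range (T / ρ), ((N (T - (j + 1) * ρ) : ℝ) - i (T - (j + 1) * ρ)) -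
      (d + 1) * ((N T : ℝ) - i T) ≤ D) :
    d * (1 - ε') * m₁ * ((T : ℝ) * N T * Φ / (n + 1) - (T : ℝ) * N T * η / (n + 1)) -
      (n + 1) * ((N T : ℝ) - i T) ≤ D := by
  refine le_trans ?_ hD
  set s : ℝ := ∑ j ∈ range (T / ρ), ((N (T - (j + 1) * ρ) : ℝ) - i (T - (j + 1) * ρ)) with hs
  have hs0 : 0 ≤ s := Finset.sum_nonneg fun j _ =>
    sub_nonneg.2 (by exact_mod_cast hle _ (Nat.sub_le _ _))
  have hdR : (1 : ℝ) ≤ d := by exact_mod_cast hd1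
  have hdnR : (d : ℝ) ≤ n := by exact_mod_cast hdn
  have hnn : (0 : ℝ) < (n : ℝ) + 1 := by positivity
  have hh : (0 : ℝ) ≤ (N T : ℝ) - i T := sub_nonneg.2 (by exact_mod_cast hle _ le_rfl)
  have hg' : (T : ℝ) * N T * Φ / (n + 1) - (T : ℝ) * N T * η / (n + 1) ≤ r * s := by
    rw [← sub_div, div_le_iff₀ hnn]
    refine le_trans (le_of_eq ?_) (hg.trans (le_of_eq ?_)) <;> ring
  have h1 : (d : ℝ) * (1 - ε') * m₁ *
      ((T : ℝ) * N T * Φ / (n + 1) - (T : ℝ) * N T * η / (n + 1)) ≤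
      (d : ℝ) * (1 - ε') * m₁ * (r * s) :=
    mul_le_mul_of_nonneg_left hg' (mul_nonneg (mul_nonneg (by linarith) (by linarith))
      (Nat.cast_nonneg _))
  have h2 : (d : ℝ) * (1 - ε') * m₁ * (r * s) ≤ d * c * s := by
    have h4 := mul_le_mul_of_nonneg_left (mul_le_mul_of_nonneg_right hc hs0)
      (show (0 : ℝ) ≤ d by linarith)
    refine le_trans (le_of_eq ?_) (h4.trans (le_of_eq ?_)) <;> ring
  have h3 : ((d : ℝ) + 1) * ((N T : ℝ) - i T) ≤ (n + 1) * ((N T : ℝ) - i T) :=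
    mul_le_mul_of_nonneg_right (by linarith) hh
  linarith

/-- the growth inequality at the level `r` gives the integrated growth (form of `grow_num`) -/
theorem grow_use {n : ℕ} (hn : 1 ≤ n) {N i : ℕ → ℕ} {T r r₁ : ℕ} {η : ℝ} (hNT : 0 < N T)
    (hi : i T ≤ N T)
    (hR : ∀ (i : ℕ → ℕ) (x : ℝ), 0 ≤ x → x ≤ 1 → x ^ n * N T = i T →
      (n + 1 : ℝ) * ((N r : ℝ) ^ ((1 : ℝ) / n)) *
        ∑ j ∈ range (T / (r + r₁)), ((i (T - (j + 1) * (r + r₁)) : ℕ) : ℝ) ≤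
        ((i T : ℝ) ^ ((1 : ℝ) / n)) ^ (n + 1) →
      (T : ℝ) * N T * (1 - x ^ (n + 1) - η) ≤
        (n + 1 : ℝ) * ((r : ℝ) * ∑ j ∈ range (T / (r + r₁)),
          (((N (T - (j + 1) * (r + r₁)) : ℕ) : ℝ) - ((i (T - (j + 1) * (r + r₁)) : ℕ) : ℝ))))
    (hgrow : (n + 1 : ℝ) * ((N r : ℝ) ^ ((1 : ℝ) / n)) *
        ∑ j ∈ range (T / (r + r₁)), ((i (T - (j + 1) * (r + r₁)) : ℕ) : ℝ) ≤
        ((i T : ℝ) ^ ((1 : ℝ) / n)) ^ (n + 1)) :
    (T : ℝ) * N T * ((1 - ((i T : ℝ) / N T) ^ ((1 : ℝ) + 1 / n)) - η) ≤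
        (n + 1 : ℝ) * ((r : ℝ) * ∑ j ∈ range (T / (r + r₁)),
          ((N (T - (j + 1) * (r + r₁)) : ℝ) - i (T - (j + 1) * (r + r₁)))) := by
  have hNpos : (0 : ℝ) < N T := by exact_mod_cast hNT
  have hiR : (i T : ℝ) ≤ N T := by exact_mod_cast hi
  set y : ℝ := (i T : ℝ) / N T with hy
  have hy0 : 0 ≤ y := by positivity
  have hy1 : y ≤ 1 := by rw [hy, div_le_one hNpos]; exact hiR
  have hn0 : n ≠ 0 := by omega
  have hxn : (y ^ ((1 : ℝ) / n)) ^ n = y := by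
    rw [one_div]; exact Real.rpow_inv_natCast_pow hy0 hn0
  have hx1 : (y ^ ((1 : ℝ) / n)) ^ (n + 1) = y ^ ((1 : ℝ) + 1 / n) := by
    rw [pow_succ, hxn, Real.rpow_add' hy0 (by positivity), Real.rpow_one]
  have h := hR i (y ^ ((1 : ℝ) / n)) (by positivity) (Real.rpow_le_one hy0 hy1 (by positivity))
    (by rw [hxn, hy]; field_simp) hgrow
  rw [hx1] at h
  exact h

/-- **The numerical estimate of the chain-free proof, second form.** -/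
theorem wcount' {n : ℕ} (hn : 1 ≤ n) {N : ℕ → ℕ} {v₀ : ℝ} (hv₀ : 0 < v₀)
    (hN : Tendsto (fun T : ℕ => (N T : ℝ) / (T : ℝ) ^ n) atTop (𝓝 v₀))
    {m₁ r₁ : ℕ} (hm₁ : 1 ≤ m₁) {x₀ ε : ℝ} (hx0 : 0 < x₀) (hx1 : x₀ < 1) (hε : 0 < ε)
    (hε1 : ε < 1) :
    ∃ r : ℕ, 0 < r ∧ 0 < N r ∧ ∃ δ : ℝ, 0 < δ ∧ ∃ T₀ : ℕ, ∀ T : ℕ, T₀ ≤ T → 0 < N T ∧
      ∀ d : ℕ, 1 ≤ d → d ≤ n → ∀ NW : ℕ, Hilb.lowSum d (m₁ ^ d) r ≤ NW → 0 < NW ∧
      (∀ D : ℝ, (d : ℝ) * ((d.factorial : ℝ) ^ ((1 : ℝ) / d)) * ((NW : ℝ) ^ ((1 : ℝ) / d)) *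
          ∑ j ∈ range (T / (r + r₁)), (N (T - (j + 1) * (r + r₁)) : ℝ) - (d + 1) * (N T : ℝ) ≤ D →
        (1 - ε) * ((d : ℝ) / (n + 1)) * (m₁ * T * N T) ≤ D) ∧
      (∀ i : ℕ → ℕ, (∀ M, M ≤ T → i M ≤ N M) →
        (n + 1 : ℝ) * ((N r : ℝ) ^ ((1 : ℝ) / n)) *
          ∑ j ∈ range (T / (r + r₁)), ((i (T - (j + 1) * (r + r₁)) : ℕ) : ℝ) ≤
          ((i T : ℝ) ^ ((1 : ℝ) / n)) ^ (n + 1) → ∀ D : ℝ,
        (d : ℝ) * ((d.factorial : ℝ) ^ ((1 : ℝ) / d)) * ((NW : ℝ) ^ ((1 : ℝ) / d)) *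
          ∑ j ∈ range (T / (r + r₁)), ((N (T - (j + 1) * (r + r₁)) : ℝ) -
            i (T - (j + 1) * (r + r₁))) - (d + 1) * ((N T : ℝ) - i T) ≤ D →
        ∀ M : ℝ, x₀ / 2 * N T ≤ M → M ≤ x₀ * N T → (N T : ℝ) - i T ≤ M →
          M ≤ (N T : ℝ) - i T + δ * N T →
        (1 - ε) * ((d : ℝ) / (n + 1)) * gam n x₀ * (m₁ * T * M) ≤ D) := by
  have hnR : (0 : ℝ) < (n : ℝ) + 1 := by positivity
  have hn1 : (1 : ℝ) ≤ n := by exact_mod_cast hn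
  set η : ℝ := ε * x₀ / 16 with hη
  have hη0 : 0 < η := by positivity
  have hη1 : η < 1 := by
    have : ε * x₀ < 1 := by nlinarith
    rw [hη]; linarith
  obtain ⟨R, hR0, hR2⟩ := exists_R n m₁ hm₁ (ε := ε / 4) (by positivity)
  obtain ⟨R', hR'⟩ := Grow.grow_num (n := n) (by omega) hv₀ hN r₁ hη0 hη1
  have hevN : ∀ᶠ T : ℕ in atTop, v₀ / 2 < (N T : ℝ) / (T : ℝ) ^ n :=
    hN.eventually (lt_mem_nhds (show v₀ / 2 < v₀ by linarith))
  obtain ⟨T₂, hT₂⟩ := eventually_atTop.1 hevN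
  have hNp : ∀ T, T₂ ≤ T → 1 ≤ T → 0 < N T := by
    intro T h1 h2
    have h3 := hT₂ T h1
    have h4 : (0 : ℝ) < (N T : ℝ) / (T : ℝ) ^ n := by linarith
    have h5 : (0 : ℝ) < (T : ℝ) ^ n := by
      have : (0 : ℝ) < T := by exact_mod_cast h2
      positivity
    have h6 : (0 : ℝ) < N T := by
      rw [lt_div_iff₀ h5] at h3
      have : (0 : ℝ) < v₀ / 2 * (T : ℝ) ^ n := by positivity
      linarith
    exact_mod_cast h6
  set r : ℕ := max (max R R') (max T₂ 1) with hr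
  have hrR : R ≤ r := (le_max_left _ _).trans (le_max_left _ _)
  have hrR' : R' ≤ r := (le_max_right _ _).trans (le_max_left _ _)
  have hrT : T₂ ≤ r := (le_max_left _ _).trans (le_max_right _ _)
  have hr1 : 1 ≤ r := (le_max_right _ _).trans (le_max_right _ _)
  refine ⟨r, by omega, hNp r hrT hr1, ε * x₀ / 16, by positivity, ?_⟩
  obtain ⟨T₁, hT₁⟩ := hR' r hrR'
  obtain ⟨T₃, hT₃⟩ := exists_nat_gt (2 * ((n : ℝ) + 1) ^ 2 / ε)
  refine ⟨max T₁ (max T₂ (max T₃ 1)), ?_⟩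
  intro T hT
  have hTa : T₁ ≤ T := le_trans (le_max_left _ _) hT
  have hTb : T₂ ≤ T := le_trans ((le_max_left _ _).trans (le_max_right _ _)) hT
  have hTc : T₃ ≤ T := le_trans ((le_max_left _ _).trans ((le_max_right _ _).trans
    (le_max_right _ _))) hT
  have hTd : 1 ≤ T := le_trans ((le_max_right _ _).trans ((le_max_right _ _).trans
    (le_max_right _ _))) hT
  have hTR : (1 : ℝ) ≤ T := by exact_mod_cast hTd
  have hNpos' : 0 < N T := hNp T hTb hTd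
  have hNpos : (0 : ℝ) < N T := by exact_mod_cast hNpos'
  have hT3 : 2 * ((n : ℝ) + 1) ^ 2 ≤ ε * T := by
    have h1 : 2 * ((n : ℝ) + 1) ^ 2 / ε < T := lt_of_lt_of_le hT₃ (by exact_mod_cast hTc)
    rw [div_lt_iff₀ hε] at h1
    linarith
  have hE : (T : ℝ) * N T * η / (n + 1) ≤ ε * x₀ / (16 * (n + 1)) * (T * N T) := by
    refine le_of_eq ?_
    rw [hη]; field_simp
  have hm1R : (1 : ℝ) ≤ m₁ := by exact_mod_cast hm₁
  refine ⟨hNpos', ?_⟩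
  intro d hd hdn NW hNW
  obtain ⟨hNWpos, hcc⟩ := hR2 r hrR d hd hdn NW hNW
  have hdR : (1 : ℝ) ≤ d := by exact_mod_cast hd
  set c : ℝ := ((d.factorial : ℝ) ^ ((1 : ℝ) / d)) * ((NW : ℝ) ^ ((1 : ℝ) / d)) with hc
  have hsm : ∀ x : ℝ, 0 ≤ x → (n + 1) * x ≤ ε / 2 * ((d : ℝ) / (n + 1)) * (m₁ * T * x) := by
    intro x hx
    have h1 : ((n : ℝ) + 1) ≤ ε / 2 * ((d : ℝ) / (n + 1)) * (m₁ * T) := by
      have h2 : ε / 2 * ((d : ℝ) / (n + 1)) * (m₁ * T) = (ε * T) * (d * m₁) / (2 * (n + 1)) := by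
        field_simp
      rw [h2, le_div_iff₀ (by positivity)]
      have h3 : (1 : ℝ) ≤ d * m₁ := by nlinarith
      have h4 : (0 : ℝ) ≤ ε * T := by positivity
      have h5 : ε * T ≤ ε * T * (d * m₁) := le_mul_of_one_le_right h4 h3
      linarith
    have h6 := mul_le_mul_of_nonneg_right h1 hx
    refine h6.trans (le_of_eq ?_)
    ring
  have hgr := hT₁ T hTa
  refine ⟨hNWpos, ?_, ?_⟩
  · intro D hD
    have hg := grow_use (i := fun _ => 0) hn hNpos' (Nat.zero_le _) hgr (by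
      simp only [Nat.cast_zero, Finset.sum_const_zero, mul_zero]
      positivity)
    have e0 : ((((0 : ℕ) : ℝ)) / (N T : ℝ)) ^ ((1 : ℝ) + 1 / n) = 0 := by
      rw [Nat.cast_zero, zero_div]
      exact Real.zero_rpow (by positivity)
    have h1 := core2 (n := n) (N := N) (i := fun _ => 0) (fun _ _ => Nat.zero_le _) hd hdn
      (ε' := ε / 4) (c := c) (D := D) (m₁ := m₁) (by linarith) hcc hg (by
        simp only [Nat.cast_zero, sub_zero]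
        rw [hc, ← mul_assoc]
        exact hD)
    rw [e0] at h1
    simp only [Nat.cast_zero, sub_zero, mul_one] at h1
    exact arithA hnR hdR hm1R hTR hNpos hε hε1 hx0 hx1 (hsm _ hNpos.le) hE h1
  · intro i hi hgrow D hD M hM1 hM2 hM3 hM4
    have hg := grow_use hn hNpos' (hi T le_rfl) hgr hgrow
    have hh0 : (0 : ℝ) ≤ (N T : ℝ) - i T := sub_nonneg.2 (by exact_mod_cast hi T le_rfl)
    have h1 := core2 (n := n) (N := N) (i := i) hi hd hdn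
      (ε' := ε / 4) (c := c) (D := D) (m₁ := m₁) (by linarith) hcc hg (by
        rw [hc, ← mul_assoc]
        exact hD)
    have hg1 : 1 < gam n x₀ := one_lt_gam hn hx0 hx1
    have hMpos : 0 < M := lt_of_lt_of_le (by positivity) hM1
    have hΦ : ((N T : ℝ) - i T) / N T * gam n x₀ ≤ 1 - ((i T : ℝ) / N T) ^ ((1 : ℝ) + 1 / n) := by
      have h2 := mul_gam_le (n := n) hx0 hx1.le (u := ((N T : ℝ) - i T) / N T) (by positivity)
        (by rw [div_le_iff₀ hNpos]; exact hM3.trans hM2)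
      have e : 1 - ((N T : ℝ) - i T) / (N T : ℝ) = (i T : ℝ) / N T := by field_simp; ring
      rwa [e] at h2
    have h3 : (T : ℝ) * ((N T : ℝ) - i T) * gam n x₀ / (n + 1) ≤
        (T : ℝ) * N T * (1 - ((i T : ℝ) / N T) ^ ((1 : ℝ) + 1 / n)) / (n + 1) := by
      have h4 : (T : ℝ) * ((N T : ℝ) - i T) * gam n x₀ / (n + 1) =
          (T : ℝ) * N T * (((N T : ℝ) - i T) / N T * gam n x₀) / (n + 1) := by
        field_simp
      rw [h4]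
      exact div_le_div_of_nonneg_right (mul_le_mul_of_nonneg_left hΦ (by positivity)) hnR.le
    exact arithB hnR hdR hm1R hTR hMpos hε hε1 hx0 hx1 hg1 hh0 hM1 hM3 hM4 (hsm _ hMpos.le) hE
      h3 h1

/-- **The weighted count, second form.**  `M` may be the floor or the ceiling of `x₀ N T`. -/
theorem W' {n : ℕ} (hn : 1 ≤ n) {N : ℕ → ℕ} {v₀ : ℝ} (hv₀ : 0 < v₀)
    (hN : Tendsto (fun T : ℕ => (N T : ℝ) / (T : ℝ) ^ n) atTop (𝓝 v₀))
    {m₁ r₁ a0 : ℕ} (hm₁ : 1 ≤ m₁) {x₀ ε θ₁ : ℝ} (hx0 : 0 < x₀) (hx1 : x₀ < 1) (hε : 0 < ε)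
    (hε1 : ε < 1) (hθ₁ : θ₁ < 1) :
    ∃ r : ℕ, 0 < r ∧ 0 < N r ∧ ∃ T₀ : ℕ, ∀ T : ℕ, T₀ ≤ T → 0 < N T ∧ 1 < x₀ * N T ∧
      ∀ (K : Type u) (A : Type w) [Field K] [CommRing A] [IsDomain A] [Algebra K A]
        (V : ℕ → Submodule K A) (hfin : ∀ M, FiniteDimensional K (V M))
        (mul_mem : ∀ M M' : ℕ, ∀ g ∈ V M', ∀ s ∈ V M, g * s ∈ V (M + M'))
        (F : ∀ M, Wt K (V M)),
        (∀ (M M' : ℕ) (g : V M') (s : V M), g ≠ 0 → s ≠ 0 →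
          (F (M + M')).w ⟨(g : A) * s, mul_mem M M' g g.2 s s.2⟩ = (F M).w s + (F M').w g) →
        (∀ (M : ℕ) (x : V M), x ≠ 0 → 0 ≤ (F M).w x) →
        (∀ M, finrank K (V M) = N M) →
        (∀ a, a0 ≤ a → ∃ y : V a, y ≠ 0 ∧ (F a).w y = 0) →
      ∀ d : ℕ, 1 ≤ d → d < n → ∀ NW : ℕ → ℕ, Hilb.lowSum d (m₁ ^ d) r ≤ NW r →
        (∀ a, (∀ y : V a, y ≠ 0 → (F a).w y = 0) → NW a = N a) →
      ∀ (Dinf : ℝ),
        (∀ s k : ℕ, k * (s + r₁) ≤ T →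
          (d : ℝ) * ((d.factorial : ℝ) ^ ((1 : ℝ) / d)) * ((NW s : ℝ) ^ ((1 : ℝ) / d)) *
            (∑ j ∈ range k, (N (T - (j + 1) * (s + r₁)) : ℝ)) - (d + 1) * N T ≤ Dinf) →
      ∀ (t : ℝ) (M : ℕ), x₀ * N T ≤ M + 1 → (M : ℝ) ≤ x₀ * N T + 1 →
        N T < finrank K ((F T).sub t) + M → finrank K ((F T).subGt t) + M ≤ N T →
        (n + 1 : ℝ) * ((N r : ℝ) ^ ((1 : ℝ) / n)) *
          ∑ j ∈ range (T / (r + r₁)), (finrank K ((F (T - (j + 1) * (r + r₁))).sub t) : ℝ) ≤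
          ((finrank K ((F T).sub t) : ℝ) ^ ((1 : ℝ) / n)) ^ (n + 1) →
      ∀ D : ℝ, 0 ≤ D →
        (d : ℝ) * ((d.factorial : ℝ) ^ ((1 : ℝ) / d)) * ((NW r : ℝ) ^ ((1 : ℝ) / d)) *
            (∑ j ∈ range (T / (r + r₁)), ((N (T - (j + 1) * (r + r₁)) : ℝ) -
              finrank K ((F (T - (j + 1) * (r + r₁))).sub t))) -
            (d + 1) * ((N T : ℝ) - finrank K ((F T).sub t)) ≤ D →
      ∀ θ : ℝ, 0 ≤ θ → θ ≤ θ₁ →
        (d : ℝ) / (n + 1) * (1 - ε) * (1 + θ * (gam n x₀ - 1)) ≤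
          (1 - θ) / (m₁ * T * N T) * Dinf + θ / (m₁ * T * M) * D := by
  have hnR : (1 : ℝ) ≤ n := by exact_mod_cast hn
  have hm1R : (1 : ℝ) ≤ m₁ := by exact_mod_cast hm₁
  obtain ⟨r, hr, hNr, δ, hδ, T₁, hT₁⟩ := wcount' hn hv₀ hN (r₁ := r₁) hm₁ hx0 hx1
    (ε := ε / 2) (by positivity) (by linarith)
  refine ⟨r, hr, hNr, ?_⟩
  have hB0 : (0 : ℝ) ≤ 2 * m₁ / (1 - θ₁) := by
    apply div_nonneg (by positivity) (by linarith)
  obtain ⟨T₂, hT₂⟩ := H987.blocks.{u, w} hv₀ hN r₁ a0 hδ hB0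
  have hNinf : Tendsto (fun T : ℕ => (N T : ℝ)) atTop atTop := by
    have h1 : Tendsto (fun T : ℕ => (T : ℝ) ^ n) atTop atTop :=
      (tendsto_pow_atTop (by omega)).comp tendsto_natCast_atTop_atTop
    have h2 := hN.pos_mul_atTop hv₀ h1
    refine h2.congr' ?_
    filter_upwards [eventually_gt_atTop 0] with T hT
    have : (T : ℝ) ^ n ≠ 0 := by positivity
    field_simp
  obtain ⟨T₃, hT₃⟩ := eventually_atTop.1 (hNinf.eventually_ge_atTop (3 / (ε * x₀) + 4 / x₀))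
  refine ⟨max (max T₁ T₂) (max T₃ 1), ?_⟩
  intro T hT
  have hTa : T₁ ≤ T := le_trans ((le_max_left _ _).trans (le_max_left _ _)) hT
  have hTb : T₂ ≤ T := le_trans ((le_max_right _ _).trans (le_max_left _ _)) hT
  have hTc : T₃ ≤ T := le_trans ((le_max_left _ _).trans (le_max_right _ _)) hT
  have hTd : 1 ≤ T := le_trans ((le_max_right _ _).trans (le_max_right _ _)) hT
  have hTR : (1 : ℝ) ≤ T := by exact_mod_cast hTd
  obtain ⟨hNpos', hW⟩ := hT₁ T hTa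
  have hNpos : (0 : ℝ) < N T := by exact_mod_cast hNpos'
  have hN3 := hT₃ T hTc
  have h4a : 4 ≤ x₀ * N T := by
    have h4 : 4 / x₀ ≤ N T := le_trans (by
      have : 0 ≤ 3 / (ε * x₀) := by positivity
      linarith) hN3
    rw [div_le_iff₀ hx0] at h4
    linarith
  have h4b : 3 / ε ≤ x₀ * N T := by
    have h4 : 3 / (ε * x₀) ≤ N T := le_trans (by
      have : 0 ≤ 4 / x₀ := by positivity
      linarith) hN3
    calc 3 / ε = x₀ * (3 / (ε * x₀)) := by field_simp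
      _ ≤ x₀ * N T := mul_le_mul_of_nonneg_left h4 hx0.le
  refine ⟨hNpos', by linarith, ?_⟩
  intro K A _ _ _ _ V hfin mul_mem F hmul hnn hrank hbp d hd hdn NW hNW hNWa Dinf
    hcinf t M hMge hMle ht1 ht2 hgrow D hD0 hct θ hθ0 hθ
  obtain ⟨hNWpos, hWA, hWB⟩ := hW d hd hdn.le (NW r) hNW
  have hdR : (1 : ℝ) ≤ d := by exact_mod_cast hd
  have hdnR : (d : ℝ) ≤ n := by exact_mod_cast hdn.le
  have hg1 : 1 < gam n x₀ := one_lt_gam hn hx0 hx1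
  have hkr : T / (r + r₁) * (r + r₁) ≤ T := Nat.div_mul_le_self _ _
  have hA := hWA Dinf (hcinf r _ hkr)
  rcases hT₂ T hTb K A V hfin mul_mem F hmul hnn hrank hbp d hd hdn NW hNWa Dinf hcinf with
    hblk | hbig
  · have h1 : ((N T : ℕ) : ℝ) + 1 ≤ finrank K ((F T).sub t) + M := by exact_mod_cast ht1
    have h2 : (finrank K ((F T).subGt t) : ℝ) + M ≤ N T := by exact_mod_cast ht2
    have h3 := hblk t
    have hile : ∀ M', M' ≤ T → finrank K ((F M').sub t) ≤ N M' := by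
      intro M' _
      rw [← hrank M']
      exact Submodule.finrank_le _
    have hBB := hWB (fun M => finrank K ((F M).sub t)) hile hgrow D hct
      ((M : ℝ) - 1) (by linarith) (by linarith) (by linarith) (by linarith)
    have hM2 : 2 / ε ≤ (M : ℝ) := by
      have h5 : 1 ≤ 1 / ε := by rw [le_div_iff₀ hε]; linarith
      have h6 : 3 / ε = 2 / ε + 1 / ε := by ring
      linarith
    exact arithW (by linarith) hdR hm1R hTR hNpos hM2 hε hε1 hg1 hθ0 (by linarith) hA hBB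
  · exact arithW' (by linarith) (by linarith) (by linarith) hm1R hTR hNpos (Nat.cast_nonneg _) hε hε1
      hg1 (gam_le_two hn hx0 hx1.le) hθ0 hθ hθ₁ hbig hD0

end Vale.Agent.P271.H177
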