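import Vale.Agent.P271.H177.Num
import Vale.Agent.P271.H987.Blocks

/-!
# P271, chain-free route, block WCOUNT: the weighted count

`W` : for all large `T`, uniformly in the valuation and its centre of dimension `1 ≤ d < n`, the
two-level sum `(1-θ)/(mN) Σ e_i + θ/(mM) Σ_{F b_i < t*} e_i` is at least
`(d/(n+1)) (1-ε) (1 + θ (gam n x₀ - 1))`.
-/

set_option linter.all false

open Filter Topology Finset Module

namespace Vale.Agent.P271.H177

open Vale.Agent.P271.Filt Vale.Agent.P271.Filt.Wt Vale.Agent.P271.H207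

universe u w

theorem gam_le {n : ℕ} {x : ℝ} (h0 : 0 < x) (h1 : x ≤ 1) : gam n x ≤ 1 + 1 / n := by
  unfold gam
  rw [div_le_iff₀ h0]
  have hp : (1 : ℝ) ≤ 1 + 1 / n := by
    have : (0 : ℝ) ≤ 1 / n := by positivity
    linarith
  have h := one_add_mul_self_le_rpow_one_add (s := -x) (by linarith) hp
  have e : (1 : ℝ) + -x = 1 - x := by ring
  rw [e] at h
  linarith

theorem gam_le_two {n : ℕ} (hn : 1 ≤ n) {x : ℝ} (h0 : 0 < x) (h1 : x ≤ 1) : gam n x ≤ 2 := by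
  have hnR : (1 : ℝ) ≤ n := by exact_mod_cast hn
  have h2 := gam_le (n := n) h0 h1
  have h3 : (1 : ℝ) / n ≤ 1 := by rw [div_le_one (by linarith)]; exact hnR
  linarith

/-- final arithmetic, regular case -/
theorem arithW {n d m T N M g ε θ Di D : ℝ} (hn : 0 < n + 1) (hd : 1 ≤ d) (hm : 1 ≤ m)
    (hT : 1 ≤ T) (hN : 0 < N) (hM : 2 / ε ≤ M) (hε : 0 < ε) (hε1 : ε < 1) (hg : 1 < g)
    (hθ0 : 0 ≤ θ) (hθ1 : θ ≤ 1)
    (hA : (1 - ε / 2) * (d / (n + 1)) * (m * T * N) ≤ Di)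
    (hB : (1 - ε / 2) * (d / (n + 1)) * g * (m * T * (M - 1)) ≤ D) :
    d / (n + 1) * (1 - ε) * (1 + θ * (g - 1)) ≤ (1 - θ) / (m * T * N) * Di + θ / (m * T * M) * D := by
  have hM0 : 0 < M := lt_of_lt_of_le (by positivity) hM
  have hm0 : 0 < m := by linarith
  have hT0 : 0 < T := by linarith
  have h1 : (1 - θ) * (d / (n + 1) * (1 - ε)) ≤ (1 - θ) / (m * T * N) * Di := by
    have h2 : (1 - θ) / (m * T * N) * ((1 - ε / 2) * (d / (n + 1)) * (m * T * N)) ≤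
        (1 - θ) / (m * T * N) * Di := mul_le_mul_of_nonneg_left hA (by
          apply div_nonneg (by linarith) (by positivity))
    refine le_trans ?_ h2
    have e : (1 - θ) / (m * T * N) * ((1 - ε / 2) * (d / (n + 1)) * (m * T * N)) =
        (1 - θ) * (d / (n + 1) * (1 - ε / 2)) := by field_simp
    rw [e]
    refine mul_le_mul_of_nonneg_left ?_ (by linarith)
    exact mul_le_mul_of_nonneg_left (by linarith) (by positivity)
  have h3 : θ * (d / (n + 1) * (1 - ε) * g) ≤ θ / (m * T * M) * D := by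
    have h2 : θ / (m * T * M) * ((1 - ε / 2) * (d / (n + 1)) * g * (m * T * (M - 1))) ≤
        θ / (m * T * M) * D := mul_le_mul_of_nonneg_left hB (by positivity)
    refine le_trans ?_ h2
    have e : θ / (m * T * M) * ((1 - ε / 2) * (d / (n + 1)) * g * (m * T * (M - 1))) =
        θ * (d / (n + 1) * ((1 - ε / 2) * ((M - 1) / M)) * g) := by field_simp
    rw [e]
    refine mul_le_mul_of_nonneg_left ?_ hθ0
    refine mul_le_mul_of_nonneg_right ?_ (by linarith)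
    refine mul_le_mul_of_nonneg_left ?_ (by positivity)
    rw [← mul_div_assoc, le_div_iff₀ hM0]
    rw [div_le_iff₀ hε] at hM
    nlinarith
  have e : d / (n + 1) * (1 - ε) * (1 + θ * (g - 1)) =
      (1 - θ) * (d / (n + 1) * (1 - ε)) + θ * (d / (n + 1) * (1 - ε) * g) := by ring
  rw [e]
  linarith

/-- final arithmetic, large total order -/
theorem arithW' {n d m T N M g ε θ θ₁ Di D : ℝ} (hn : 0 < n + 1) (hd : 0 ≤ d) (hdn : d ≤ n + 1)
    (hm : 1 ≤ m) (hT : 1 ≤ T) (hN : 0 < N) (hM : 0 ≤ M) (hε : 0 < ε) (hε1 : ε < 1) (hg : 1 < g)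
    (hg2 : g ≤ 2) (hθ0 : 0 ≤ θ) (hθ : θ ≤ θ₁) (hθ1 : θ₁ < 1)
    (hA : 2 * m / (1 - θ₁) * (T * N) ≤ Di) (hD : 0 ≤ D) :
    d / (n + 1) * (1 - ε) * (1 + θ * (g - 1)) ≤ (1 - θ) / (m * T * N) * Di + θ / (m * T * M) * D := by
  have hm0 : 0 < m := by linarith
  have hT0 : 0 < T := by linarith
  have h1 : 0 ≤ θ / (m * T * M) * D := by positivity
  have h2 : (1 - θ) / (m * T * N) * (2 * m / (1 - θ₁) * (T * N)) ≤ (1 - θ) / (m * T * N) * Di :=
    mul_le_mul_of_nonneg_left hA (div_nonneg (by linarith) (by positivity))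
  have h3 : (1 - θ) / (m * T * N) * (2 * m / (1 - θ₁) * (T * N)) = 2 * ((1 - θ) / (1 - θ₁)) := by
    have : (1 - θ₁) ≠ 0 := by linarith
    field_simp
  have h4 : 1 ≤ (1 - θ) / (1 - θ₁) := by
    rw [le_div_iff₀ (by linarith)]; linarith
  have h5 : d / (n + 1) ≤ 1 := by rw [div_le_one hn]; exact hdn
  have h6 : 1 + θ * (g - 1) ≤ 2 := by nlinarith
  have h7 : d / (n + 1) * (1 - ε) ≤ 1 := by
    have := mul_le_mul h5 (show 1 - ε ≤ 1 by linarith) (by linarith) zero_le_one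
    linarith
  have h8 : 0 ≤ 1 + θ * (g - 1) := by nlinarith
  have h9 : d / (n + 1) * (1 - ε) * (1 + θ * (g - 1)) ≤ 1 * (1 + θ * (g - 1)) :=
    mul_le_mul_of_nonneg_right h7 h8
  linarith

/-- **The weighted count.** -/
theorem W {n : ℕ} (hn : 1 ≤ n) {N : ℕ → ℕ} {v₀ : ℝ} (hv₀ : 0 < v₀)
    (hN : Tendsto (fun T : ℕ => (N T : ℝ) / (T : ℝ) ^ n) atTop (𝓝 v₀)) {ok : (ℕ → ℕ) → Prop}
    (hok0 : ok (fun _ => 0)) (hokle : ∀ i, ok i → ∀ M, i M ≤ N M) (hG : GrowProp n N ok)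
    {m₁ r₁ a0 : ℕ} (hm₁ : 1 ≤ m₁) {x₀ ε θ₁ : ℝ} (hx0 : 0 < x₀) (hx1 : x₀ < 1) (hε : 0 < ε)
    (hε1 : ε < 1) (hθ₁ : θ₁ < 1) :
    ∃ r : ℕ, 0 < r ∧ ∃ T₀ : ℕ, ∀ T : ℕ, T₀ ≤ T → 0 < N T ∧
      ∀ (K : Type u) (A : Type w) [Field K] [CommRing A] [IsDomain A] [Algebra K A]
        (V : ℕ → Submodule K A) (hfin : ∀ M, FiniteDimensional K (V M))
        (mul_mem : ∀ M M' : ℕ, ∀ g ∈ V M', ∀ s ∈ V M, g * s ∈ V (M + M'))
        (F : ∀ M, Wt K (V M)),
        (∀ (M M' : ℕ) (g : V M') (s : V M), g ≠ 0 → s ≠ 0 →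
          (F (M + M')).w ⟨(g : A) * s, mul_mem M M' g g.2 s s.2⟩ = (F M).w s + (F M').w g) →
        (∀ (M : ℕ) (x : V M), x ≠ 0 → 0 ≤ (F M).w x) →
        (∀ M, finrank K (V M) = N M) →
        (∀ a, a0 ≤ a → ∃ y : V a, y ≠ 0 ∧ (F a).w y = 0) →
        (∀ t : ℝ, ok (fun M => finrank K ((F M).sub t))) →
      ∀ d : ℕ, 1 ≤ d → d < n → ∀ NW : ℕ → ℕ, Hilb.lowSum d (m₁ ^ d) r ≤ NW r →
        (∀ a, (∀ y : V a, y ≠ 0 → (F a).w y = 0) → NW a = N a) →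
      ∀ (Dinf : ℝ) (D : ℝ → ℝ),
        (∀ s k : ℕ, k * (s + r₁) ≤ T →
          (d : ℝ) * ((d.factorial : ℝ) ^ ((1 : ℝ) / d)) * ((NW s : ℝ) ^ ((1 : ℝ) / d)) *
            (∑ j ∈ range k, (N (T - (j + 1) * (s + r₁)) : ℝ)) - (d + 1) * N T ≤ Dinf) →
        (∀ (t : ℝ) (s k : ℕ), k * (s + r₁) ≤ T →
          (d : ℝ) * ((d.factorial : ℝ) ^ ((1 : ℝ) / d)) * ((NW s : ℝ) ^ ((1 : ℝ) / d)) *
            (∑ j ∈ range k, ((N (T - (j + 1) * (s + r₁)) : ℝ) -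
              finrank K ((F (T - (j + 1) * (s + r₁))).sub t))) -
            (d + 1) * ((N T : ℝ) - finrank K ((F T).sub t)) ≤ D t) →
        (∀ t, 0 ≤ D t) →
      ∀ t : ℝ, N T < finrank K ((F T).sub t) + ⌈x₀ * N T⌉₊ →
        finrank K ((F T).subGt t) + ⌈x₀ * N T⌉₊ ≤ N T →
      ∀ θ : ℝ, 0 ≤ θ → θ ≤ θ₁ →
        (d : ℝ) / (n + 1) * (1 - ε) * (1 + θ * (gam n x₀ - 1)) ≤
          (1 - θ) / (m₁ * T * N T) * Dinf + θ / (m₁ * T * ⌈x₀ * N T⌉₊) * D t := by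
  have hnR : (1 : ℝ) ≤ n := by exact_mod_cast hn
  have hm1R : (1 : ℝ) ≤ m₁ := by exact_mod_cast hm₁
  obtain ⟨r, hr, δ, hδ, T₁, hT₁⟩ := wcount hn hv₀ hN hok0 hokle hG (r₁ := r₁) hm₁ hx0 hx1
    (ε := ε / 2) (by positivity) (by linarith)
  refine ⟨r, hr, ?_⟩
  have hB0 : (0 : ℝ) ≤ 2 * m₁ / (1 - θ₁) := by
    apply div_nonneg (by positivity) (by linarith)
  obtain ⟨T₂, hT₂⟩ := H987.blocks.{u, w} hv₀ hN r₁ a0 hδ hB0
  -- `N T` is large
  have hNinf : Tendsto (fun T : ℕ => (N T : ℝ)) atTop atTop := by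
    have h1 : Tendsto (fun T : ℕ => (T : ℝ) ^ n) atTop atTop :=
      (tendsto_pow_atTop (by omega)).comp tendsto_natCast_atTop_atTop
    have h2 := hN.pos_mul_atTop hv₀ h1
    refine h2.congr' ?_
    filter_upwards [eventually_gt_atTop 0] with T hT
    have : (T : ℝ) ^ n ≠ 0 := by positivity
    field_simp
  obtain ⟨T₃, hT₃⟩ := eventually_atTop.1 (hNinf.eventually_ge_atTop (2 / (ε * x₀) + 2 / x₀))
  refine ⟨max (max T₁ T₂) (max T₃ 1), ?_⟩
  intro T hT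
  have hTa : T₁ ≤ T := le_trans ((le_max_left _ _).trans (le_max_left _ _)) hT
  have hTb : T₂ ≤ T := le_trans ((le_max_right _ _).trans (le_max_left _ _)) hT
  have hTc : T₃ ≤ T := le_trans ((le_max_left _ _).trans (le_max_right _ _)) hT
  have hTd : 1 ≤ T := le_trans ((le_max_right _ _).trans (le_max_right _ _)) hT
  have hTR : (1 : ℝ) ≤ T := by exact_mod_cast hTd
  obtain ⟨hNpos', hW⟩ := hT₁ T hTa
  have hNpos : (0 : ℝ) < N T := by exact_mod_cast hNpos'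
  refine ⟨hNpos', ?_⟩
  intro K A _ _ _ _ V hfin mul_mem F hmul hnn hrank hbp hokF d hd hdn NW hNW hNWa Dinf D
    hcinf hct hD0 t ht1 ht2 θ hθ0 hθ
  obtain ⟨hNWpos, hWA, hWB⟩ := hW d hd hdn.le (NW r) hNW
  have hN3 := hT₃ T hTc
  have hdR : (1 : ℝ) ≤ d := by exact_mod_cast hd
  have hdnR : (d : ℝ) ≤ n := by exact_mod_cast hdn.le
  have hg1 : 1 < gam n x₀ := one_lt_gam hn hx0 hx1
  have hkr : T / (r + r₁) * (r + r₁) ≤ T := Nat.div_mul_le_self _ _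
  have hA := hWA Dinf (hcinf r _ hkr)
  rcases hT₂ T hTb K A V hfin mul_mem F hmul hnn hrank hbp d hd hdn NW hNWa Dinf hcinf with
    hblk | hbig
  · -- all blocks are small
    set M : ℕ := ⌈x₀ * N T⌉₊ with hM
    have hMge : x₀ * N T ≤ M := Nat.le_ceil _
    have hMlt : (M : ℝ) < x₀ * N T + 1 := Nat.ceil_lt_add_one (by positivity)
    have h1 : ((N T : ℕ) : ℝ) + 1 ≤ finrank K ((F T).sub t) + M := by exact_mod_cast ht1
    have h2 : (finrank K ((F T).subGt t) : ℝ) + M ≤ N T := by exact_mod_cast ht2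
    have h3 := hblk t
    have hx : x₀ / 2 * N T + 1 ≤ x₀ * N T := by
      have h4 : 2 / x₀ ≤ N T := le_trans (by
        have : 0 ≤ 2 / (ε * x₀) := by positivity
        linarith) hN3
      rw [div_le_iff₀ hx0] at h4
      linarith
    have hBB := hWB (fun M => finrank K ((F M).sub t)) (hokF t) (D t) (hct t r _ hkr)
      ((M : ℝ) - 1) (by linarith) (by linarith) (by linarith) (by linarith)
    have hM2 : 2 / ε ≤ (M : ℝ) := by
      have h4 : 2 / (ε * x₀) ≤ N T := le_trans (by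
        have : 0 ≤ 2 / x₀ := by positivity
        linarith) hN3
      have h5 : 2 / ε ≤ x₀ * N T := by
        calc 2 / ε = x₀ * (2 / (ε * x₀)) := by field_simp
          _ ≤ x₀ * N T := mul_le_mul_of_nonneg_left h4 hx0.le
      linarith
    exact arithW (by linarith) hdR hm1R hTR hNpos hM2 hε hε1 hg1 hθ0 (by linarith) hA hBB
  · exact arithW' (by linarith) (by linarith) (by linarith) hm1R hTR hNpos (Nat.cast_nonneg _) hε hε1
      hg1 (gam_le_two hn hx0 hx1.le) hθ0 hθ hθ₁ hbig (hD0 t)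

end Vale.Agent.P271.H177
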